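import Vale.Agent.P281.H511.TL.StkG
import Vale.Agent.P281.H511.TK.FlatFin
import Vale.Agent.P281.H969.TL.Spec

/-!
# P281, project T-L, block B2a (helper511): the volume of the fibres is constant
-/

open Set Filter Metric MeasureTheory Vale.Agent.P272.K Vale.Agent.P281.H64.TK
open Vale.Agent.P281.H511.TK
open scoped Topology ContDiff ComplexConjugate ComplexOrder Manifold Matrix

noncomputable section

namespace Vale.Agent.P281.H511.TL

section alg
variable {d : ℕ}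

theorem bas_some (x : Fin d × Bool) : ∃ v : Cm d, (bas (some x) : ℝ × Cm d) = (0, v) := by
  obtain ⟨k, b⟩ := x
  cases b <;> exact ⟨_, rfl⟩

theorem vec_fst (b : Fin d → Bi d) : (vec b).1 =
    ∑ τ : Equiv.Perm (Ix d), (((Equiv.Perm.sign τ : ℤ) : ℝ) *
      ∏ k, b k (bas (τ (some (k, false)))) (bas (τ (some (k, true))))) * (bas (τ none)).1 := by
  rw [vec, Prod.fst_sum]
  rfl

theorem vec_fst_congr {b b' : Fin d → Bi d}
    (h : ∀ k (ζ ζ' : Cm d), b k (0, ζ) (0, ζ') = b' k (0, ζ) (0, ζ')) : (vec b).1 = (vec b').1 := by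
  rw [vec_fst, vec_fst]
  refine Finset.sum_congr rfl fun τ _ => ?_
  by_cases h0 : τ none = none
  · have h1 : ∀ x, ∃ v : Cm d, (bas (τ (some x)) : ℝ × Cm d) = (0, v) := by
      intro x
      have h2 : τ (some x) ≠ none := by
        intro h3
        have h4 : some x = none := τ.injective (h3.trans h0.symm)
        exact absurd h4 (by simp)
      obtain ⟨y, hy⟩ := Option.ne_none_iff_exists'.1 h2
      rw [hy]
      exact bas_some y
    congr 2
    refine Finset.prod_congr rfl fun k _ => ?_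
    obtain ⟨v, hv⟩ := h1 (k, false)
    obtain ⟨v', hv'⟩ := h1 (k, true)
    rw [hv, hv', h]
  · obtain ⟨y, hy⟩ := Option.ne_none_iff_exists'.1 h0
    obtain ⟨v, hv⟩ := bas_some y
    rw [hy, hv, mul_zero, mul_zero]

theorem vec_fst_sum [DecidableEq (Fin d)] (b : Fin d → Bi d) (k₀ : Fin d) {ι : Type}
    (s : Finset ι) (β : ι → Bi d) :
    (vec (Function.update b k₀ (∑ l ∈ s, β l))).1 =
      ∑ l ∈ s, (vec (Function.update b k₀ (β l))).1 := by
  have key : ∀ (B : Bi d) (x y : Fin d → ℝ × Cm d),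
      ∏ k, (Function.update b k₀ B) k (x k) (y k) =
        B (x k₀) (y k₀) * ∏ k ∈ Finset.univ.erase k₀, b k (x k) (y k) := by
    intro B x y
    rw [← Finset.mul_prod_erase Finset.univ _ (Finset.mem_univ k₀), Function.update_self]
    congr 1
    refine Finset.prod_congr rfl fun k hk => ?_
    rw [Function.update_of_ne (Finset.ne_of_mem_erase hk)]
  simp only [vec_fst, key]
  rw [Finset.sum_comm]
  refine Finset.sum_congr rfl fun τ _ => ?_
  rw [sum_apply, sum_apply, Finset.sum_mul, Finset.mul_sum, Finset.sum_mul]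

/-- the real form `Re (v · ζ)` -/
def la (v : Cm d) : (ℝ × Cm d) →L[ℝ] ℝ := LinearMap.toContinuousLinearMap
  { toFun := fun x => (∑ k, v k * x.2 k).re
    map_add' := fun x y => by
      rw [← Complex.add_re, ← Finset.sum_add_distrib]
      congr 1
      refine Finset.sum_congr rfl fun k _ => ?_
      rw [Prod.snd_add, Pi.add_apply, mul_add]
    map_smul' := fun c x => by
      rw [RingHom.id_apply, smul_eq_mul, ← Complex.re_ofReal_mul, Finset.mul_sum]
      congr 1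
      refine Finset.sum_congr rfl fun k _ => ?_
      rw [Prod.smul_snd, Pi.smul_apply, Complex.real_smul]
      ring }

theorem la_apply (v : Cm d) (x : ℝ × Cm d) : la v x = (∑ k, v k * x.2 k).re := rfl

theorem algV (hA3 : Alg3Stmt) : ∃ κ : ℕ → ℝ, (∀ d, 0 < d → κ d ≠ 0) ∧
    ∀ (d : ℕ) (w : Matrix (Fin d) (Fin d) ℂ) (b : Fin d → Bi d), 0 < d → w.PosDef →
    (∀ k (ζ ζ' : Cm d), b k (0, ζ) (0, ζ') = (∑ i, ∑ j, w i j * ζ i * conj (ζ' j)).im) →
    (vec b).1 = κ d * w.det.re := by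
  classical
  obtain ⟨κ, hκ0, hκ⟩ := hA3
  refine ⟨fun d => κ d * (-2 * d), fun d hd => ?_, ?_⟩
  · have : (d : ℝ) ≠ 0 := Nat.cast_ne_zero.2 hd.ne'
    exact mul_ne_zero (hκ0 d) (mul_ne_zero (by norm_num) this)
  intro d w b hd hw hb
  obtain ⟨B, hB⟩ := P272.K.C2.exists_factor hw.posSemidef
  -- `w = Jᵀ conj J`
  set J : Matrix (Fin d) (Fin d) ℂ := B.map conj with hJ
  have hwJ : ∀ i j, w i j = ∑ k, J k i * conj (J k j) := by
    intro i j
    rw [hB]
    simp [hJ, Matrix.mul_apply, Matrix.conjTranspose_apply]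
  -- the vectors
  let v : Fin d × Bool → Cm d := fun x => if x.2 then fun a => -J x.1 a else
    fun a => -Complex.I * J x.1 a
  let v' : Fin d × Bool → Cm d := fun x => if x.2 then fun a => -Complex.I * J x.1 a else
    fun a => J x.1 a
  set k₀ : Fin d := ⟨0, hd⟩ with hk₀
  have h1 : (vec b).1 = (vec (Function.update b k₀
      (∑ x : Fin d × Bool, (la (v x)).smulRight (la (v' x))))).1 := by
    refine vec_fst_congr fun k ζ ζ' => ?_
    by_cases hk : k = k₀
    · rw [hk, Function.update_self, hb, sum_apply, sum_apply, Fintype.sum_prod_type]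
      have h2 : ∀ i j, w i j * ζ i * conj (ζ' j) =
          ∑ k, (J k i * ζ i) * conj (J k j * ζ' j) := by
        intro i j
        rw [hwJ, Finset.sum_mul, Finset.sum_mul]
        refine Finset.sum_congr rfl fun k _ => ?_
        rw [map_mul]
        ring
      have h3 : ∑ i, ∑ j, w i j * ζ i * conj (ζ' j) =
          ∑ k, (∑ i, J k i * ζ i) * conj (∑ j, J k j * ζ' j) := by
        simp only [h2]
        have h4 : ∀ k, (∑ i, J k i * ζ i) * conj (∑ j, J k j * ζ' j) =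
            ∑ i, ∑ j, (J k i * ζ i) * conj (J k j * ζ' j) := by
          intro k
          rw [map_sum, Finset.sum_mul_sum]
        simp only [h4]
        rw [Finset.sum_comm]
        conv_rhs => rw [Finset.sum_comm]
        rw [Finset.sum_comm]
        refine Finset.sum_congr rfl fun i _ => ?_
        rw [Finset.sum_comm]
      rw [h3, Complex.im_sum]
      refine Finset.sum_congr rfl fun k _ => ?_
      simp only [Fintype.sum_bool, v, v', if_true, if_false, Bool.false_eq_true]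
      rw [ContinuousLinearMap.smulRight_apply, ContinuousLinearMap.smulRight_apply, smul_apply,
        smul_apply, smul_eq_mul, smul_eq_mul, la_apply, la_apply, la_apply, la_apply]
      have h5 : ∀ x : Cm d, ∑ a, -J k a * x a = -∑ a, J k a * x a := by
        intro x
        rw [← Finset.sum_neg_distrib]
        exact Finset.sum_congr rfl fun a _ => by ring
      have h6 : ∀ x : Cm d, ∑ a, -Complex.I * J k a * x a = -Complex.I * ∑ a, J k a * x a := by
        intro x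
        rw [Finset.mul_sum]
        exact Finset.sum_congr rfl fun a _ => by ring
      simp only [h5, h6, Complex.mul_im, Complex.mul_re, Complex.neg_re, Complex.neg_im,
        Complex.I_re, Complex.I_im, Complex.conj_re, Complex.conj_im]
      ring
    · rw [Function.update_of_ne hk]
  rw [h1, vec_fst_sum]
  have h2 : ∀ x : Fin d × Bool, (vec (Function.update b k₀ ((la (v x)).smulRight (la (v' x))))).1 =
      κ d * (w.det * (w⁻¹ * Matrix.of fun j k => v x j * conj (v' x k)).trace).im := by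
    intro x
    refine hκ d hd w (v x) (v' x) _ hw (fun ζ ζ' => ?_) fun k hk ζ ζ' => ?_
    · rw [← hk₀, Function.update_self, ContinuousLinearMap.smulRight_apply, smul_apply,
        smul_eq_mul, la_apply, la_apply]
    · rw [Function.update_of_ne hk, hb]
  simp only [h2]
  rw [← Finset.mul_sum, mul_assoc]
  congr 1
  rw [← Complex.im_sum, ← Finset.mul_sum, ← Matrix.trace_sum, ← Finset.mul_sum]
  have h3 : (∑ x : Fin d × Bool, (Matrix.of fun j k => v x j * conj (v' x k) :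
      Matrix (Fin d) (Fin d) ℂ)) = (-2 * Complex.I) • w := by
    ext i j
    rw [Matrix.sum_apply, Fintype.sum_prod_type, Matrix.smul_apply, hwJ, smul_eq_mul,
      Finset.mul_sum]
    refine Finset.sum_congr rfl fun k _ => ?_
    simp only [Fintype.sum_bool, Matrix.of_apply, v, v', if_true, if_false, Bool.false_eq_true,
      map_mul, map_neg, Complex.conj_I]
    ring
  have h4 : w⁻¹ * w = 1 := Matrix.nonsing_inv_mul _ (isUnit_iff_ne_zero.2 hw.det_pos.ne')
  rw [h3, Matrix.mul_smul, h4, Matrix.trace_smul, Matrix.trace_one, Fintype.card_fin, smul_eq_mul]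
  simp only [Complex.mul_im, Complex.mul_re, Complex.neg_re, Complex.neg_im, Complex.I_re,
    Complex.I_im, Complex.natCast_re, Complex.natCast_im]
  norm_num
  ring

end alg

variable {p d : ℕ} {E Γ : Type} [TopologicalSpace E] [Group Γ] [MulAction Γ E]

/-- the vector field -/
def VW (𝓕 : Fam p d E Γ)
    (W : Fin 𝓕.N → Cm p × Cm d → Matrix (Fin p ⊕ Fin d) (Fin p ⊕ Fin d) ℂ) (t τ : Cm p)
    (i : Fin 𝓕.N) (q : ℝ × Cm d) : ℝ × Cm d :=
  vec fun _ : Fin d => imForm τ (W i (par t τ q.1, q.2))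

/-- the volume -/
def vol (𝓕 : Fam p d E Γ)
    (W : Fin 𝓕.N → Cm p × Cm d → Matrix (Fin p ⊕ Fin d) (Fin p ⊕ Fin d) ℂ) (t : Cm p) : ℝ :=
  ∑ i, ∫ z in PP 𝓕 t i, (fibW W t i z).det.re

variable {𝓕 : Fam p d E Γ}
  {W : Fin 𝓕.N → Cm p × Cm d → Matrix (Fin p ⊕ Fin d) (Fin p ⊕ Fin d) ℂ} {t τ : Cm p}

theorem bw_prop (hA5 : Alg5Stmt) (hW : KFam 𝓕 W) (i : Fin 𝓕.N) {s : ℝ} (hs : par t τ s ∈ 𝓕.T)
    {z : Cm d} (hz : z ∈ ball (0 : Cm d) 3) :
    ContDiffAt ℝ ∞ (fun q : ℝ × Cm d => imForm τ (W i (par t τ q.1, q.2))) (s, z) ∧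
      ClosedB (fderiv ℝ (fun q : ℝ × Cm d => imForm τ (W i (par t τ q.1, q.2))) (s, z)) := by
  refine hA5.1 p d τ (W i) t (s, z) _ (fun a c => hW.smooth i _ hs z hz a c) ?_
    (fun a c e => hW.closed i _ hs z hz a c e)
    (Eventually.of_forall fun x => isImForm τ _)
  have h1 : ∀ᶠ q : Cm p × Cm d in 𝓝 (par t τ s, z), q.1 ∈ 𝓕.T ∧ q.2 ∈ ball (0 : Cm d) 3 :=
    ((continuous_fst.tendsto _).eventually (𝓕.isOpen.mem_nhds hs)).and
      ((continuous_snd.tendsto _).eventually (isOpen_ball.mem_nhds hz))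
  filter_upwards [h1] with q hq
  exact (hW.posDef i q.1 hq.1 q.2 hq.2).isHermitian

theorem VW_trans (hA1 : Alg1Stmt) (hW : KFam 𝓕 W) {i j : Fin 𝓕.N} {s : ℝ}
    (hs : par t τ s ∈ 𝓕.T) {z w : Cm d} (hz : z ∈ ball (0 : Cm d) 3) (hw : w ∈ ball (0 : Cm d) 3)
    {γ : Γ} {θ : Cm p × Cm d → Cm d} (hθ : AnalyticAt ℂ θ (par t τ s, z))
    (hθw : θ (par t τ s, z) = w)
    (hev : ∀ᶠ q in 𝓝 (par t τ s, z), 𝓕.σ i q.1 q.2 = γ • 𝓕.σ j q.1 (θ q)) :
    fderiv ℝ (Ph t τ θ) (s, z) (VW 𝓕 W t τ i (s, z)) =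
      (fderiv ℝ (Ph t τ θ) (s, z)).det • VW 𝓕 W t τ j (s, w) := by
  refine hA1 d _ _ _ fun k x y => ?_
  rw [imForm_apply, imForm_apply, fderiv_Ph hθ.differentiableAt, fderiv_Ph hθ.differentiableAt,
    ← jacT_tv τ x θ, ← jacT_tv τ y θ, ← sum_change,
    ← hW.change i j (par t τ s) hs z hz w hw γ θ hθ hθw hev]

theorem form_eqV [ContinuousConstSMul Γ E] {κ : ℕ → ℝ} (hκ : ∀ (d : ℕ) (w : Matrix (Fin d) (Fin d) ℂ) (b : Fin d → Bi d),
    0 < d → w.PosDef →
    (∀ k (ζ ζ' : Cm d), b k (0, ζ) (0, ζ') = (∑ i, ∑ j, w i j * ζ i * conj (ζ' j)).im) →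
    (vec b).1 = κ d * w.det.re) (hd : 0 < d) (hW : KFam 𝓕 W) {s : ℝ} (hs : par t τ s ∈ 𝓕.T) :
    ∑ j, ∫ z in PP 𝓕 (par t τ s) j, (VW 𝓕 W t τ j (s, z)).1 = κ d * vol 𝓕 W (par t τ s) := by
  unfold vol
  rw [Finset.mul_sum]
  refine Finset.sum_congr rfl fun j _ => ?_
  rw [← integral_const_mul]
  refine setIntegral_congr_fun (H864.K.meas_P (𝓕.at _ hs) j) fun z hz => ?_
  refine hκ d _ _ hd ((H603.K.kah_fib hW hs).posDef j z
    (H864.K.P_subset3 (𝓕.at _ hs) j hz)) fun k ζ ζ' => ?_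
  rw [imForm_apply]
  congr 1
  simp only [Fintype.sum_sum_type, tv, Sum.elim_inl, Sum.elim_inr, Complex.ofReal_zero, zero_mul,
    mul_zero, map_zero, Finset.sum_const_zero, zero_add]
  rfl

/-- local constancy -/
theorem vol_const [ContinuousConstSMul Γ E] (hA1 : Alg1Stmt) (hA2 : Alg2Stmt) (hA3 : Alg3Stmt)
    (hA5 : Alg5Stmt) (hA6 : Alg6Stmt) (hd : 0 < d) (hW : KFam 𝓕 W)
    {t₀ t₁ : Cm p} {r : ℝ} (hr : ball t₀ r ⊆ 𝓕.T) (ht₁ : t₁ ∈ ball t₀ r) :
    vol 𝓕 W t₁ = vol 𝓕 W t₀ := by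
  obtain ⟨κ, hκ0, hκ⟩ := algV hA3
  set τ : Cm p := t₁ - t₀ with hτ
  have hmem : ∀ s ∈ Icc (0 : ℝ) 1, par t₀ τ s ∈ 𝓕.T := by
    intro s hs
    refine hr ?_
    rw [mem_ball, dist_eq_norm] at ht₁ ⊢
    have h1 : par t₀ τ s - t₀ = (s : ℂ) • (t₁ - t₀) := by
      unfold par
      rw [add_sub_cancel_left]
    rw [h1, norm_smul, Complex.norm_real, Real.norm_eq_abs, abs_of_nonneg hs.1]
    calc s * ‖t₁ - t₀‖ ≤ 1 * ‖t₁ - t₀‖ := by gcongr; exact hs.2
      _ < r := by rwa [one_mul]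
  set f : ℝ → ℝ := fun s => vol 𝓕 W (par t₀ τ s) with hf
  have hder : ∀ s ∈ Icc (0 : ℝ) 1, HasDerivAt f 0 s := by
    intro s hs
    have h1 := stokesG (𝓕 := 𝓕) (t := par t₀ τ s) (τ := τ) (V := VW 𝓕 W (par t₀ τ s) τ) hA6
      𝓕.isOpen subset_rfl
      (fun i s' hs' z hz => vec_smooth fun _ => (bw_prop hA5 hW i hs' hz).1)
      (fun i j s' hs' z hz w hw γ θ hθ hθw hev => VW_trans hA1 hW hs' hz hw hθ hθw hev)
      (fun i s' hs' z hz => hA2 d _ (s', z)
        (fun _ => (bw_prop hA5 hW i hs' hz).1.differentiableAt (by simp))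
        (fun _ => (bw_prop hA5 hW i hs' hz).2)) (hmem s hs)
    have h2 : HasDerivAt (fun r => κ d * vol 𝓕 W (par (par t₀ τ s) τ r)) 0 0 := by
      refine h1.congr_of_eventuallyEq ?_
      have h3 : ∀ᶠ r in 𝓝 (0 : ℝ), par (par t₀ τ s) τ r ∈ 𝓕.T := by
        refine (hasDerivAt_par _ τ 0).continuousAt.eventually (𝓕.isOpen.mem_nhds ?_)
        show par (par t₀ τ s) τ 0 ∈ 𝓕.T
        rw [par_zero]
        exact hmem s hs
      filter_upwards [h3] with r hr
      exact (form_eqV hκ hd hW hr).symm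
    have h3 := h2.const_mul (κ d)⁻¹
    have h4 : (fun r => (κ d)⁻¹ * (κ d * vol 𝓕 W (par (par t₀ τ s) τ r))) =
        fun r => f (s + r) := by
      funext r
      rw [inv_mul_cancel_left₀ (hκ0 d hd), par_par]
    rw [h4, mul_zero] at h3
    have h5 : HasDerivAt (fun r => f (s + r)) 0 (s - s) := by
      rwa [sub_self]
    have h6 := HasDerivAt.comp_sub_const s s h5
    simpa using h6
  have h1 := constant_of_has_deriv_right_zero (f := f) (a := 0) (b := 1)
    (fun s hs => (hder s hs).continuousAt.continuousWithinAt)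
    (fun s hs => (hder s (Ico_subset_Icc_self hs)).hasDerivWithinAt) 1 (by simp)
  have h2 : par t₀ τ 1 = t₁ := by
    unfold par
    rw [hτ, Complex.ofReal_one, one_smul, add_sub_cancel]
  have h3 : par t₀ τ 0 = t₀ := par_zero _ _
  simp only [hf, h2, h3] at h1
  exact h1

/-- **B2a** -/
theorem volF : H969.TL.VolFStmt := by
  intro p d E Γ _ _ _ _ _ _ 𝓕 W hd hW t ht t' ht'
  change vol 𝓕 W t = vol 𝓕 W t'
  have hloc : ∀ t₀ ∈ 𝓕.T, ∀ᶠ t in 𝓝 t₀, vol 𝓕 W t = vol 𝓕 W t₀ := by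
    intro t₀ ht₀
    obtain ⟨r, hr, hrT⟩ := Metric.isOpen_iff.1 𝓕.isOpen t₀ ht₀
    filter_upwards [ball_mem_nhds t₀ hr] with t ht
    exact vol_const H399.K.alg1 H399.K.alg2 (H603.K.alg3 H399.K.alg1) H603.K.alg5 H603.K.alg6 hd
      hW hrT ht
  have hcont : ContinuousOn (vol 𝓕 W) 𝓕.T := by
    intro t₀ ht₀
    have h1 : ContinuousAt (vol 𝓕 W) t₀ := by
      have h2 : vol 𝓕 W =ᶠ[𝓝 t₀] fun _ => vol 𝓕 W t₀ := hloc t₀ ht₀
      exact continuousAt_const.congr h2.symm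
    exact h1.continuousWithinAt
  by_contra hne
  have h1 := isPreconnected_iff_subset_of_disjoint.1 𝓕.conn
    {s | s ∈ 𝓕.T ∧ vol 𝓕 W s = vol 𝓕 W t} {s | s ∈ 𝓕.T ∧ vol 𝓕 W s ≠ vol 𝓕 W t} (by
      rw [isOpen_iff_mem_nhds]
      rintro s ⟨hs, hs'⟩
      filter_upwards [hloc s hs, 𝓕.isOpen.mem_nhds hs] with s' h2 h3
      exact ⟨h3, h2.trans hs'⟩) (by
      rw [isOpen_iff_mem_nhds]
      rintro s ⟨hs, hs'⟩
      filter_upwards [hloc s hs, 𝓕.isOpen.mem_nhds hs] with s' h2 h3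
      exact ⟨h3, fun h4 => hs' (h2.symm.trans h4)⟩) (fun s hs => by
      by_cases h : vol 𝓕 W s = vol 𝓕 W t
      · exact Or.inl ⟨hs, h⟩
      · exact Or.inr ⟨hs, h⟩) (by
      rw [Set.eq_empty_iff_forall_notMem]
      rintro s ⟨-, ⟨-, h2⟩, ⟨-, h3⟩⟩
      exact h3 h2)
  rcases h1 with h1 | h1
  · exact hne (h1 ht').2.symm
  · exact (h1 ht).2 rfl

end Vale.Agent.P281.H511.TL
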