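import Vale.Agent.P281.H511.TK.Stk

/-!
# P281, project T-L, block B2a (helper511): Stokes for families of vector fields
-/

open Set Filter Metric MeasureTheory Vale.Agent.P272.K Vale.Agent.P281.H64.TK
open Vale.Agent.P281.H511.TK
open scoped Topology ContDiff ComplexConjugate ComplexOrder Manifold Matrix

noncomputable section

namespace Vale.Agent.P281.H511.TL

variable {p d : ℕ} {E Γ : Type} [TopologicalSpace E] [Group Γ] [MulAction Γ E]
variable {𝓕 : Fam p d E Γ} {t τ : Cm p} {T' : Set (Cm p)}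

/-- **Stokes**, for a family of divergence free vector fields -/
theorem stokesG [ContinuousConstSMul Γ E] (hA6 : Alg6Stmt) (hT'o : IsOpen T') (hT' : T' ⊆ 𝓕.T)
    {V : Fin 𝓕.N → ℝ × Cm d → ℝ × Cm d}
    (hVs : ∀ (i : Fin 𝓕.N) (s : ℝ), par t τ s ∈ T' → ∀ z ∈ ball (0 : Cm d) 3,
      ContDiffAt ℝ ∞ (V i) (s, z))
    (hVt : ∀ (i j : Fin 𝓕.N) (s : ℝ), par t τ s ∈ T' → ∀ z ∈ ball (0 : Cm d) 3,
      ∀ w ∈ ball (0 : Cm d) 3, ∀ (γ : Γ) (θ : Cm p × Cm d → Cm d),
      AnalyticAt ℂ θ (par t τ s, z) → θ (par t τ s, z) = w →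
      (∀ᶠ q in 𝓝 (par t τ s, z), 𝓕.σ i q.1 q.2 = γ • 𝓕.σ j q.1 (θ q)) →
      fderiv ℝ (Ph t τ θ) (s, z) (V i (s, z)) = (fderiv ℝ (Ph t τ θ) (s, z)).det • V j (s, w))
    (hVd : ∀ (i : Fin 𝓕.N) (s : ℝ), par t τ s ∈ T' → ∀ z ∈ ball (0 : Cm d) 3,
      ∑ a, cd a (fderiv ℝ (V i) (s, z) (bas a)) = 0) (ht : t ∈ T') :
    HasDerivAt (fun s => ∑ j, ∫ z in PP 𝓕 (par t τ s) j, (V j (s, z)).1) 0 0 := by
  have h23 : closedBall (0 : Cm d) 2 ⊆ ball 0 3 := closedBall_subset_ball (by norm_num)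
  -- a neighbourhood of `0`
  obtain ⟨ε, hε, hmem⟩ : ∃ ε > 0, ∀ s : ℝ, |s| < ε → par t τ s ∈ T' := by
    have h1 : ∀ᶠ s in 𝓝 (0 : ℝ), par t τ s ∈ T' := by
      refine (hasDerivAt_par t τ 0).continuousAt.eventually (hT'o.mem_nhds ?_)
      show par t τ 0 ∈ T'
      rwa [par_zero]
    obtain ⟨ε, hε, h2⟩ := Metric.eventually_nhds_iff.1 h1
    exact ⟨ε, hε, fun s hs => h2 (by simpa using hs)⟩
  have hp0 : par t τ 0 ∈ T' := by rwa [par_zero]
  -- the law of change of coordinates, for a given change of coordinates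
  have hchg : ∀ (s : ℝ) (hs : par t τ s ∈ T') (i j : Fin 𝓕.N), ∀ z ∈ ball (0 : Cm d) 3,
      ∀ w ∈ ball (0 : Cm d) 3, ∀ (γ : Γ) (θ : Cm d → Cm d), AnalyticAt ℂ θ z → θ z = w →
      (∀ᶠ v in 𝓝 z, 𝓕.σ i (par t τ s) v = γ • 𝓕.σ j (par t τ s) (θ v)) →
      ∃ Θ : Cm p × Cm d → Cm d, AnalyticAt ℂ Θ (par t τ s, z) ∧ Θ (par t τ s, z) = w ∧
        (∀ᶠ q in 𝓝 (par t τ s, z), 𝓕.σ i q.1 q.2 = γ • 𝓕.σ j q.1 (Θ q)) ∧
        (fderiv ℝ (Ph t τ Θ) (s, z)).det = ‖(jac θ z).det‖ ^ 2 := by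
    intro s hs i j z hz w hw γ θ hθ hθw hev
    have h1 : 𝓕.σ i (par t τ s) z = γ • 𝓕.σ j (par t τ s) w := by
      have := hev.self_of_nhds
      rwa [hθw] at this
    obtain ⟨Θ, g1, g2, g3⟩ := 𝓕.hol i j _ (hT' hs) z hz w hw γ h1
    refine ⟨Θ, g1, g2, g3, ?_⟩
    have h2 : Tendsto (fun v : Cm d => (par t τ s, v)) (𝓝 z) (𝓝 (par t τ s, z)) :=
      (by fun_prop : Continuous fun v : Cm d => (par t τ s, v)).tendsto z
    have h3 : (fun v => Θ (par t τ s, v)) =ᶠ[𝓝 z] θ := by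
      refine theta_unique (𝓕.at _ (hT' hs)) (i := i) (j := j) hw (γ := γ) (γ' := γ) ?_
        hθ.continuousAt g2 hθw (h2.eventually g3) hev
      exact ContinuousAt.comp_of_eq (f := fun v : Cm d => (par t τ s, v)) g1.continuousAt
        h2 rfl
    rw [det_Ph hA6 g1, H864.K.jac_congr h3]
  -- the first component is a density
  have hdens : ∀ (s : ℝ) (hs : par t τ s ∈ T'), IsDens (𝓕.at _ (hT' hs))
      (fun j z => (V j (s, z)).1) := by
    intro s hs i j z hz w hw γ θ hθ hθw hev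
    obtain ⟨Θ, g1, g2, g3, g4⟩ := hchg s hs i j z hz w hw γ θ hθ hθw hev
    have h1 := hVt i j s hs z hz w hw γ Θ g1 g2 g3
    rw [g4, fderiv_Ph g1.differentiableAt] at h1
    exact congrArg Prod.fst h1
  have hc1 : ∀ (s : ℝ) (hs : par t τ s ∈ T') (j : Fin 𝓕.N),
      ContinuousOn (fun z => (V j (s, z)).1) (ball (0 : Cm d) 3) := by
    intro s hs j z hz
    have h1 := (hVs j s hs z hz).continuousAt
    have h2 : ContinuousAt (fun z : Cm d => V j (s, z)) z :=
      ContinuousAt.comp_of_eq (f := fun z : Cm d => (s, z)) h1 (by fun_prop) rfl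
    exact (continuous_fst.continuousAt.comp h2).continuousWithinAt
  -- localization
  have hloc : ∀ s : ℝ, |s| < ε → ∑ j, ∫ z in PP 𝓕 (par t τ s) j, (V j (s, z)).1 =
      ∑ i, ∫ z in closedBall (0 : Cm d) 2,
        (RR 𝓕 t τ i i (s, z) • V i (s, z)).1 := by
    intro s hs
    exact int_local (hT' (hmem s hs)) (hc1 s (hmem s hs)) (hdens s (hmem s hs))
  set X : Fin 𝓕.N → ℝ × Cm d → ℝ × Cm d := fun i q => RR 𝓕 t τ i i q • V i q
    with hX
  have hXs : ∀ (i : Fin 𝓕.N) (s : ℝ), |s| < ε → ∀ z ∈ ball (0 : Cm d) 3,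
      ContDiffAt ℝ ∞ (X i) (s, z) := fun i s hs z hz =>
    (RR_smooth i i (hT' (hmem s hs)) hz).smul (hVs i s (hmem s hs) z hz)
  have h00 : |(0 : ℝ)| < ε := by simpa using hε
  have hX0 : ∀ i, ∀ z ∈ ball (0 : Cm d) 3, 2 < ‖z‖ → ∀ᶠ q in 𝓝 ((0 : ℝ), z), X i q = 0 := by
    intro i z hz hz2
    have h1 := rho_eventually i i (hT' hp0) hz (fun γ w hw he => by
      have h2 : w ∈ ball (0 : Cm d) 3 := by
        rw [mem_ball, dist_zero_right]
        linarith
      have h3 := (uniq (𝓕 := 𝓕) (δ := 1) (hT' hp0) h2 hz (by rw [he, one_smul])).2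
      rw [h3] at hw
      linarith)
    filter_upwards [(par_tendsto (d := d) t τ 0 z).eventually h1] with q hq
    show rho 𝓕 i (par t τ q.1) (𝓕.σ i (par t τ q.1) q.2) • _ = (0 : ℝ × Cm d)
    rw [hq, zero_smul]
  -- the derivative
  have hder : ∀ i, HasDerivAt (fun s => ∫ z in closedBall (0 : Cm d) 2, (X i (s, z)).1)
      (∫ z in closedBall (0 : Cm d) 2, fderiv ℝ (fun q => (X i q).1) (0, z) (1, 0)) 0 :=
    fun i => deriv_int (G := fun q => (X i q).1) hε fun s hs z hz =>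
      (contDiff_fst.contDiffAt.comp (s, z) (hXs i s hs z hz)).of_le (by simp)
  have hder' : HasDerivAt (fun s => ∑ i, ∫ z in closedBall (0 : Cm d) 2, (X i (s, z)).1)
      (∑ i, ∫ z in closedBall (0 : Cm d) 2, fderiv ℝ (fun q => (X i q).1) (0, z) (1, 0)) 0 :=
    HasDerivAt.fun_sum fun i _ => hder i
  -- the integrand
  have hV0 : ∀ i : Fin 𝓕.N, ContinuousOn (fun z => V i (0, z)) (ball (0 : Cm d) 3) := by
    intro i z hz
    exact (ContinuousAt.comp_of_eq (f := fun z : Cm d => ((0 : ℝ), z))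
      (hVs i 0 hp0 z hz).continuousAt (by fun_prop) rfl).continuousWithinAt
  have hR0 : ∀ i j : Fin 𝓕.N, ContinuousOn (fun z => fderiv ℝ (RR 𝓕 t τ i j) (0, z))
      (ball (0 : Cm d) 3) := by
    intro i j z hz
    have h1 : ContinuousAt (fderiv ℝ (RR 𝓕 t τ i j)) (0, z) :=
      ((RR_smooth i j (hT' hp0) hz).fderiv_right (m := 0) (by simp)).continuousAt
    exact (ContinuousAt.comp_of_eq (f := fun z : Cm d => ((0 : ℝ), z))
      h1 (by fun_prop) rfl).continuousWithinAt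
  have hXc : ∀ (i : Fin 𝓕.N) (v : ℝ × Cm d) (a : Ix d),
      ContinuousOn (fun z => cd a (fderiv ℝ (X i) (0, z) v)) (closedBall (0 : Cm d) 2) := by
    intro i v a z hz
    have h1 : ContinuousAt (fderiv ℝ (X i)) (0, z) :=
      ((hXs i 0 h00 z (h23 hz)).fderiv_right (m := 0) (by simp)).continuousAt
    have h2 : ContinuousAt (fun z : Cm d => fderiv ℝ (X i) (0, z)) z :=
      ContinuousAt.comp_of_eq (f := fun z : Cm d => ((0 : ℝ), z)) h1 (by fun_prop) rfl
    have h3 : ContinuousAt (fun z : Cm d => fderiv ℝ (X i) (0, z) v) z :=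
      ContinuousAt.clm_apply h2 continuousAt_const
    have h4 : ContinuousAt (fun z : Cm d => cdL a (fderiv ℝ (X i) (0, z) v)) z :=
      (cdL a).continuous.continuousAt.comp h3
    have h5 : (fun z : Cm d => cdL a (fderiv ℝ (X i) (0, z) v)) =
        fun z => cd a (fderiv ℝ (X i) (0, z) v) := by
      funext z
      rw [cdL_apply]
    rw [h5] at h4
    exact h4.continuousWithinAt
  have hstep : ∀ i, ∫ z in closedBall (0 : Cm d) 2, fderiv ℝ (fun q => (X i q).1) (0, z) (1, 0) =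
      ∫ z in closedBall (0 : Cm d) 2,
        fderiv ℝ (RR 𝓕 t τ i i) (0, z) (V i (0, z)) := by
    intro i
    have h1 : ∀ z ∈ closedBall (0 : Cm d) 2,
        fderiv ℝ (fun q => (X i q).1) (0, z) (1, 0) =
        fderiv ℝ (RR 𝓕 t τ i i) (0, z) (V i (0, z)) -
          ∑ a : Fin d × Bool, cd (some a) (fderiv ℝ (X i) (0, z) (bas (some a))) := by
      intro z hz
      have h2 := div_mul (g := RR 𝓕 t τ i i) (X := V i) (q := (0, z))
        ((RR_smooth i i (hT' hp0) (h23 hz)).differentiableAt (by simp))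
        ((hVs i 0 hp0 z (h23 hz)).differentiableAt (by simp))
      rw [hVd i 0 hp0 z (h23 hz), mul_zero, add_zero,
        Fintype.sum_option] at h2
      have h3 : fderiv ℝ (fun q => (X i q).1) (0, z) (1, 0) =
          cd none (fderiv ℝ (X i) (0, z) (bas none)) := by
        have h4 : HasFDerivAt (X i) (fderiv ℝ (X i) (0, z)) (0, z) :=
          ((hXs i 0 h00 z (h23 hz)).differentiableAt (by simp)).hasFDerivAt
        rw [h4.fst.fderiv]
        rfl
      rw [h3, ← h2]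
      show _ = cd none (fderiv ℝ (X i) (0, z) (bas none)) +
        ∑ a : Fin d × Bool, cd (some a) (fderiv ℝ (X i) (0, z) (bas (some a))) - _
      ring
    rw [setIntegral_congr_fun measurableSet_closedBall h1, integral_sub, integral_finsetSum]
    · rw [Finset.sum_eq_zero, sub_zero]
      rintro ⟨k, b⟩ -
      have h5 : ∃ v : Cm d, (bas (some (k, b)) : ℝ × Cm d) = (0, v) := by
        cases b <;> exact ⟨_, rfl⟩
      obtain ⟨v, hv⟩ := h5
      rw [hv]
      exact int_zero (fun z hz => (hXs i 0 h00 z hz).of_le (by simp)) (hX0 i) _ v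
    · intro a _
      exact (hXc i _ _).integrableOn_compact (isCompact_closedBall _ _)
    · refine ContinuousOn.integrableOn_compact (isCompact_closedBall _ _) ?_
      exact ((hR0 i i).mono h23).clm_apply ((hV0 i).mono h23)
    · refine ContinuousOn.integrableOn_compact (isCompact_closedBall _ _) ?_
      exact continuousOn_finsetSum _ fun a _ => hXc i _ _
  -- the sum vanishes
  have hpc : ∀ i, ∫ z in closedBall (0 : Cm d) 2,
        fderiv ℝ (RR 𝓕 t τ i i) (0, z) (V i (0, z)) =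
      ∑ j, ∫ z in (𝓕.at _ (hT' hp0)).P j,
        fderiv ℝ (RR 𝓕 t τ i j) (0, z) (V j (0, z)) := by
    intro i
    refine int_piece (𝓕.at _ (hT' hp0))
      (D := fun j z => fderiv ℝ (RR 𝓕 t τ i j) (0, z) (V j (0, z)))
      (fun j => (hR0 i j).clm_apply (hV0 j)) ?_ i ?_
    · intro j k z hz w hw γ θ hθ hθw hev
      obtain ⟨Θ, g1, g2, g3, g4⟩ := hchg 0 hp0 j k z hz w hw γ θ hθ hθw hev
      have h1 := hVt j k 0 hp0 z hz w hw γ Θ g1 g2 g3
      rw [g4] at h1
      have h2 : (RR 𝓕 t τ i j) =ᶠ[𝓝 (0, z)] fun q => RR 𝓕 t τ i k (Ph t τ Θ q) := by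
        filter_upwards [sheet_trans hT'o hp0 g3] with q hq
        show rho 𝓕 i (par t τ q.1) (𝓕.σ j (par t τ q.1) q.2) = _
        rw [hq.2, rho_smul (𝓕 := 𝓕) (hT' hq.1)]
        rfl
      have h3 : HasFDerivAt (Ph t τ Θ) (fderiv ℝ (Ph t τ Θ) (0, z)) (0, z) := by
        have := hasFDerivAt_Ph (t := t) (τ := τ) g1.differentiableAt
        rw [this.fderiv]
        exact this
      have h4 : HasFDerivAt (RR 𝓕 t τ i k) (fderiv ℝ (RR 𝓕 t τ i k) (0, w))
          (Ph t τ Θ (0, z)) := by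
        have h5 : Ph t τ Θ (0, z) = (0, w) := by
          show ((0 : ℝ), Θ (par t τ 0, z)) = (0, w)
          rw [g2]
        rw [h5]
        exact ((RR_smooth i k (hT' hp0) hw).differentiableAt (by simp)).hasFDerivAt
      have h5 := (h4.comp (0, z) h3).congr_of_eventuallyEq h2
      show fderiv ℝ (RR 𝓕 t τ i j) (0, z) (V j (0, z)) = _
      rw [h5.fderiv, ContinuousLinearMap.comp_apply, h1, map_smul, smul_eq_mul]
    · intro j z hz hne
      by_contra hcon
      push Not at hcon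
      refine hne ?_
      have h1 := rho_eventually i j (hT' hp0) hz fun γ w hw => hcon γ w hw
      have h2 : (RR 𝓕 t τ i j) =ᶠ[𝓝 (0, z)] fun _ => 0 := by
        filter_upwards [(par_tendsto (d := d) t τ 0 z).eventually h1] with q hq
        exact hq
      show fderiv ℝ (RR 𝓕 t τ i j) (0, z) (V j (0, z)) = 0
      rw [h2.fderiv_eq]
      simp
  have hzero : ∑ i, ∫ z in closedBall (0 : Cm d) 2,
      fderiv ℝ (fun q => (X i q).1) (0, z) (1, 0) = 0 := by
    rw [Finset.sum_congr rfl fun i _ => (hstep i).trans (hpc i), Finset.sum_comm]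
    refine Finset.sum_eq_zero fun j _ => ?_
    rw [← integral_finsetSum]
    · rw [setIntegral_congr_fun (g := fun _ => (0 : ℝ)) (H864.K.meas_P _ j)]
      · simp
      · intro z hz
        have hz3 : z ∈ ball (0 : Cm d) 3 := H864.K.P_subset3 _ j hz
        show ∑ i, fderiv ℝ (RR 𝓕 t τ i j) (0, z) (V j (0, z)) = 0
        have h1 : HasFDerivAt (fun q => ∑ i, RR 𝓕 t τ i j q)
            (∑ i, fderiv ℝ (RR 𝓕 t τ i j) (0, z)) (0, z) :=
          HasFDerivAt.fun_sum fun i _ =>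
            ((RR_smooth i j (hT' hp0) hz3).differentiableAt (by simp)).hasFDerivAt
        have h2 : (fun q => ∑ i, RR 𝓕 t τ i j q) =ᶠ[𝓝 (0, z)] fun _ => 1 := by
          filter_upwards [par_mem (d := d) hT'o hp0 z] with q hq
          exact sum_rho (hT' hq) _
        have h3 : ∑ i, fderiv ℝ (RR 𝓕 t τ i j) (0, z) = 0 := by
          rw [← h1.fderiv, h2.fderiv_eq]
          simp
        rw [← sum_apply, h3]
        rfl
    · intro i _
      exact H864.K.integrableOn_P _ j ((hR0 i j).clm_apply (hV0 j))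
  rw [hzero] at hder'
  refine hder'.congr_of_eventuallyEq ?_
  filter_upwards [ball_mem_nhds (0 : ℝ) hε] with s hs
  exact hloc s (by simpa using hs)

end Vale.Agent.P281.H511.TL
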